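import Vale.Agent.P181.MR.Defs
import Vale.Agent.P181.TL.H639.BalB
import Vale.Agent.P181.H463.LowGlue
import Vale.Agent.P181.SZR5.Minor

set_option autoImplicit false

/-!
# P181, MR: [BAL], contents flatter than the balanced content of `n` letters
-/

open MvPolynomial

namespace Vale.Agent.P181.MR.H467

open Vale.Agent.P181.T4 (HW rowOp mem_HW)
open Vale.Agent.P181.SZR3 (colD rowD_eq rowD_colD colH_colD rowH_colD)
open Vale.Agent.P181.SZR5
open Vale.Agent.P181.TL (KK)
open Vale.Agent.P181.TL.H639
open Vale.Agent.P181.H188W (dt)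
open Vale.Agent.P181.H463 (gt)

/-- The family of all `KK` is stable under polarizations. -/
lemma stab (k : ℕ) (σ : Type) [Fintype σ] [DecidableEq σ] (tau : Fin k → ℕ) :
    H463.Stable (K := ℂ) (ρ := Fin k) (σ := σ) (fun d => KK k σ d tau) where
  deg := fun d f hf m hm j => by
    have h := hf.2 m hm j
    change ((∑ r, m (r, j) : ℕ) : ℤ) = (d j : ℤ)
    rw [h]
  pol := fun d i j hij f hf => by
    have e : H463.pol ℂ i j f = colD i j f := rfl
    rw [e]
    refine ⟨⟨rowH_colD hf.1.1, fun s r hsr => ?_⟩, ?_⟩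
    · rw [← rowD_eq, rowD_colD, rowD_eq, hf.1.2 s r hsr, map_zero]
    · refine colH_colD (d := d + Pi.single j 1) hf.2 fun l => ?_
      simp only [Pi.add_apply, Pi.single_apply, @eq_comm _ i l, @eq_comm _ j l]
      ring
  fin := fun d => inferInstance

/-- The dimension grows from `d` to the flatter `c`. -/
theorem chain {σ : Type} [Fintype σ] [DecidableEq σ] {k : ℕ}
    {H : (σ → ℕ) → Submodule ℂ (MvPolynomial (Fin k × σ) ℂ)} (hH : H463.Stable H)
    (S : Finset σ) (c : σ → ℕ) (h3 : ∀ i, i ∉ S → ∀ j ∈ S, c i ≤ c j) (d : σ → ℕ)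
    (h1 : ∀ i ∈ S, c i ≤ d i) (h2 : ∀ i, i ∉ S → d i ≤ c i) (hd : ∑ j, d j = ∑ j, c j) :
    Module.finrank ℂ (H d) ≤ Module.finrank ℂ (H c) := by
  obtain ⟨N, hN⟩ : ∃ N, ∑ j, (d j - c j) = N := ⟨_, rfl⟩
  induction N generalizing d with
  | zero =>
    have h4 : ∀ j, d j ≤ c j := by
      intro j
      have := (Finset.sum_eq_zero_iff.mp hN) j (Finset.mem_univ j)
      omega
    have h5 : d = c := by
      funext j
      by_contra hne
      have hlt : d j < c j := lt_of_le_of_ne (h4 j) hne
      have : ∑ j, d j < ∑ j, c j :=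
        Finset.sum_lt_sum (fun i _ => h4 i) ⟨j, Finset.mem_univ j, hlt⟩
      omega
    rw [h5]
  | succ N ih =>
    obtain ⟨j, hj⟩ : ∃ j, c j < d j := by
      by_contra hno
      push Not at hno
      have : ∑ j, (d j - c j) = 0 :=
        Finset.sum_eq_zero fun j _ => Nat.sub_eq_zero_of_le (hno j)
      omega
    obtain ⟨i, hi⟩ : ∃ i, d i < c i := by
      by_contra hno
      push Not at hno
      have : ∑ j, c j < ∑ j, d j :=
        Finset.sum_lt_sum (fun i _ => hno i) ⟨j, Finset.mem_univ j, hj⟩
      omega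
    have hjS : j ∈ S := by
      by_contra h
      exact absurd (h2 j h) (by omega)
    have hiS : i ∉ S := fun h => absurd (h1 i h) (by omega)
    have h4 := h3 i hiS j hjS
    have hij : i ≠ j := by
      rintro rfl
      omega
    set e : σ → ℕ := fun s => if s = j then d j - 1 else d s with he
    have hde : d = e + Pi.single j 1 := by
      funext s
      by_cases hs : s = j
      · subst hs
        simp only [he, Pi.add_apply, Pi.single_eq_same, if_true]
        omega
      · simp only [he, Pi.add_apply, Pi.single_eq_of_ne hs, if_neg hs, add_zero]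
    have hei : e i = d i := by simp only [he, if_neg hij]
    have hej : e j = d j - 1 := by simp only [he, if_true]
    have hle : e i ≤ e j := by omega
    have hstep := hH.step e hij hle
    rw [← hde] at hstep
    refine hstep.trans (ih (e + Pi.single i 1) ?_ ?_ ?_ ?_)
    · intro s hs
      have hsi : s ≠ i := fun h => hiS (h ▸ hs)
      rw [Pi.add_apply, Pi.single_eq_of_ne hsi, add_zero]
      by_cases hsj : s = j
      · subst hsj
        omega
      · have : e s = d s := by simp only [he, if_neg hsj]
        rw [this]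
        exact h1 s hs
    · intro s hs
      have hsj : s ≠ j := fun h => hs (h ▸ hjS)
      have : e s = d s := by simp only [he, if_neg hsj]
      rw [Pi.add_apply, this]
      by_cases hsi : s = i
      · subst hsi
        rw [Pi.single_eq_same]
        omega
      · rw [Pi.single_eq_of_ne hsi, add_zero]
        exact h2 s hs
    · rw [← hd]
      conv_rhs => rw [hde]
      simp only [Pi.add_apply, Finset.sum_add_distrib, Finset.sum_pi_single', Finset.mem_univ,
        if_true]
    · have e1 : ∀ s, (e + Pi.single i 1 : σ → ℕ) s - c s + (if s = j then 1 else 0) =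
          d s - c s := by
        intro s
        by_cases hs : s = j
        · subst hs
          simp only [Pi.add_apply, Pi.single_eq_of_ne hij.symm, add_zero, if_true, hej]
          omega
        · by_cases hsi : s = i
          · subst hsi
            simp only [Pi.add_apply, Pi.single_eq_same, if_neg hs, add_zero, hei]
            omega
          · simp only [Pi.add_apply, Pi.single_eq_of_ne hsi, if_neg hs, add_zero, he]
      have h5 := Finset.sum_congr rfl (fun s (_ : s ∈ (Finset.univ : Finset σ)) => e1 s)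
      rw [Finset.sum_add_distrib, Finset.sum_ite_eq' Finset.univ j, if_pos (Finset.mem_univ j),
        hN] at h5
      omega

/-- Renaming of the columns along an injection. -/
lemma ren_KK {m n : ℕ} {σ : Type} [Fintype σ] {φ : Fin n → σ} (hφ : Function.Injective φ)
    {β : Fin n → ℕ} {mu : Fin m → ℕ} {f : MvPolynomial (Fin m × Fin n) ℂ}
    (hf : f ∈ KK m (Fin n) β mu) : ren m φ f ∈ KK m σ (Function.extend φ β 0) mu := by
  classical
  refine ⟨ren_row hf.1, fun v hv j => ?_⟩
  obtain ⟨u, hu, hu'⟩ := coeff_rename_ne_zero _ _ _ hv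
  have hinj : Function.Injective (fun p : Fin m × Fin n => (p.1, φ p.2)) := by
    rintro ⟨a, b⟩ ⟨c, d⟩ h
    have h1 := congrArg Prod.fst h
    have h2 := congrArg Prod.snd h
    simp only at h1 h2
    rw [h1, hφ h2]
  by_cases hj : ∃ q, φ q = j
  · obtain ⟨q, rfl⟩ := hj
    rw [hφ.extend_apply, ← hf.2 u hu' q, ← hu]
    refine Finset.sum_congr rfl fun i _ => ?_
    exact Finsupp.mapDomain_apply hinj u (i, q)
  · rw [Function.extend_apply' _ _ _ hj, Pi.zero_apply, ← hu]
    refine Finset.sum_eq_zero fun i _ => ?_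
    apply Finsupp.mapDomain_of_notMem_range
    rintro ⟨⟨a, b⟩, hab⟩
    exact hj ⟨b, congrArg Prod.snd hab⟩

lemma finrank_ren {m n : ℕ} {σ : Type} [Fintype σ] {φ : Fin n → σ} (hφ : Function.Injective φ)
    (β : Fin n → ℕ) (mu : Fin m → ℕ) :
    Module.finrank ℂ (KK m (Fin n) β mu) ≤
      Module.finrank ℂ (KK m σ (Function.extend φ β 0) mu) := by
  let L : KK m (Fin n) β mu →ₗ[ℂ] KK m σ (Function.extend φ β 0) mu :=
    (ren m φ).toLinearMap.restrict (fun f hf => ren_KK hφ hf)
  refine LinearMap.finrank_le_finrank_of_injective (f := L) ?_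
  intro f g hfg
  apply Subtype.ext
  exact ren_inj hφ (congrArg Subtype.val hfg)

/-! ### Products of minors -/

/-- The minor of the columns `e` and the first `i` rows. -/
noncomputable def dP {m n i : ℕ} (him : i ≤ m) (e : Fin i → Fin n) :
    MvPolynomial (Fin m × Fin n) ℂ :=
  Matrix.det (Matrix.of fun j k : Fin i => X (Fin.castLE him k, e j))

lemma dP_eval {m n i : ℕ} (him : i ≤ m) (e : Fin i → Fin n) (z : Fin n → Fin m → ℂ) :
    eval (fun p : Fin m × Fin n => z p.2 p.1) (dP him e) = dt him e z := by
  rw [dP, dt, RingHom.map_det]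
  congr 1
  ext j k : 2
  simp

lemma dP_succ {m n r : ℕ} (hr : r + 1 ≤ m) (e : Fin (r + 1) → Fin n) :
    dP hr e = minor hr e := by
  rw [dP, minor, ← Matrix.det_transpose]
  rfl

lemma dP_HW {m n i : ℕ} (him : i ≤ m) (e : Fin i → Fin n) :
    dP him e ∈ HW m (Fin n) (fun k => if (k : ℕ) < i then 1 else 0) := by
  rcases i with _ | r
  · have h1 : dP him e = 1 := Matrix.det_fin_zero
    have h2 : (fun k : Fin m => if (k : ℕ) < 0 then 1 else 0) = 0 := by
      funext k
      rw [if_neg (Nat.not_lt_zero _)]
      rfl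
    rw [h1, h2]
    exact HW_one
  · rw [dP_succ]
    have h := minor_HW (him : r < m) e
    have h2 : (fun k : Fin m => if (k : ℕ) < r + 1 then 1 else 0) =
        fun k : Fin m => if (k : ℕ) ≤ r then 1 else 0 := by
      funext k
      simp only [Nat.lt_succ_iff]
    rw [h2]
    exact h

lemma dP_col {m n i : ℕ} (him : i ≤ m) (e : Fin i → Fin n) :
    Col m (Fin n) (dP him e) (∑ b, Pi.single (e b) 1) := by
  rcases i with _ | r
  · have h1 : dP him e = 1 := Matrix.det_fin_zero
    rw [h1, Finset.univ_eq_empty, Finset.sum_empty]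
    exact Col.one
  · rw [dP_succ]
    exact minor_col _ e

/-- A linearly independent family of products of minors is bounded by the dimension of `KK`. -/
lemma card_le {m n : ℕ} (eta : Fin m → ℕ) (d : Fin n → ℕ) (C ι : Type) [Fintype C] [Fintype ι]
    (len : C → ℕ) (hlen : ∀ c, len c ≤ m)
    (hrow : ∀ i : Fin m, (Finset.univ.filter fun c => (i : ℕ) < len c).card = eta i)
    (J : ι → (c : C) → Fin (len c) → Fin n)
    (hJ : ∀ β q, ∑ c, (Finset.univ.filter fun s => J β c s = q).card = d q)
    (hli : LinearIndependent ℂ (fun (β : ι) (z : Fin n → Fin m → ℂ) =>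
        (∏ c, dt (hlen c) (J β c)) z)) :
    Fintype.card ι ≤ Module.finrank ℂ (KK m (Fin n) d eta) := by
  classical
  let P : ι → MvPolynomial (Fin m × Fin n) ℂ := fun β => ∏ c, dP (hlen c) (J β c)
  have hP : ∀ β, P β ∈ KK m (Fin n) d eta := by
    intro β
    have h1 := HW_prod (Finset.univ : Finset C)
      (fun c => fun k : Fin m => if (k : ℕ) < len c then 1 else 0)
      (fun c => dP (hlen c) (J β c)) (fun c _ => dP_HW (hlen c) (J β c))
    have h2 : (∑ c, fun k : Fin m => if (k : ℕ) < len c then 1 else 0) = eta := by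
      funext i
      rw [← hrow i, Finset.sum_apply, Finset.card_filter]
    rw [h2] at h1
    have h3 := Col.prod (n := m) (Finset.univ : Finset C) (d := fun c => ∑ b, Pi.single (J β c b) 1)
      (f := fun c => dP (hlen c) (J β c)) (fun c _ => dP_col (hlen c) (J β c))
    have h4 : (∑ c, ∑ b, (Pi.single (J β c b) 1 : Fin n → ℕ)) = d := by
      funext q
      rw [← hJ β q, Finset.sum_apply]
      refine Finset.sum_congr rfl fun c _ => ?_
      rw [Finset.sum_apply, Finset.card_filter]
      refine Finset.sum_congr rfl fun s _ => ?_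
      rw [Pi.single_apply]
      by_cases h : J β c s = q
      · rw [if_pos h, if_pos h.symm]
      · rw [if_neg h, if_neg (fun h' => h h'.symm)]
    rw [h4] at h3
    exact ⟨h1, h3⟩
  let L : MvPolynomial (Fin m × Fin n) ℂ →ₗ[ℂ] ((Fin n → Fin m → ℂ) → ℂ) :=
    LinearMap.pi fun z => (aeval (R := ℂ) (fun p : Fin m × Fin n => z p.2 p.1)).toLinearMap
  have hL : ∀ β, L (P β) = (∏ c, dt (hlen c) (J β c)) := by
    intro β
    funext z
    have h1 : L (P β) z = eval (fun p : Fin m × Fin n => z p.2 p.1) (P β) := by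
      change aeval (R := ℂ) (fun p : Fin m × Fin n => z p.2 p.1) (P β) = _
      rw [aeval_eq_eval]
    rw [h1, map_prod, Finset.prod_apply]
    exact Finset.prod_congr rfl fun c _ => dP_eval _ _ _
  have h1 : LinearIndependent ℂ (fun β => L (P β)) := by
    have : (fun β => L (P β)) = (fun (β : ι) (z : Fin n → Fin m → ℂ) =>
        (∏ c, dt (hlen c) (J β c)) z) := by
      funext β
      exact hL β
    rw [this]
    exact hli
  have h2 : LinearIndependent ℂ P := LinearIndependent.of_comp L h1
  have h3 : LinearIndependent ℂ (fun β => (⟨P β, hP β⟩ : KK m (Fin n) d eta)) :=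
    LinearIndependent.of_comp (KK m (Fin n) d eta).subtype h2
  exact h3.fintype_card_le_finrank

/-- The balanced content. -/
lemma exists_bal (n T : ℕ) (hn : 0 < n) : ∃ d : Fin n → ℕ, (∀ i j, d i ≤ d j + 1) ∧
    ∑ q, d q = T ∧ ∀ q, T / n ≤ d q := by
  refine ⟨fun q => T / n + if (q : ℕ) < T % n then 1 else 0, fun i j => ?_, ?_, fun q => ?_⟩
  · dsimp only
    split_ifs <;> omega
  · rw [Finset.sum_add_distrib, Finset.sum_const, Finset.card_univ, Fintype.card_fin, smul_eq_mul]
    have h1 : ∑ q : Fin n, (if (q : ℕ) < T % n then 1 else 0) = T % n := by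
      rw [Fin.sum_univ_eq_sum_range (fun q => if q < T % n then 1 else 0) n,
        ← Finset.sum_filter, Finset.sum_const, smul_eq_mul, mul_one]
      have : (Finset.range n).filter (fun q => q < T % n) = Finset.range (T % n) := by
        ext q
        simp only [Finset.mem_filter, Finset.mem_range]
        have := Nat.mod_lt T hn
        omega
      rw [this, Finset.card_range]
    rw [h1]
    exact Nat.div_add_mod T n
  · exact Nat.le_add_right _ _

/-- **[BAL]** -/
theorem balM : BalM := by
  classical
  intro m n σ _ _ c S eta heta hn hS hsum h3 h4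
  obtain ⟨d, hd, hds, hdT⟩ := exists_bal n (∑ i, eta i) hn
  refine H463.gt_le_of_family eta heta d hd hds ?_
  intro C ι _ _ len hlen hrow J hJ hli
  refine (card_le eta d C ι len hlen hrow J hJ hli).trans ?_
  let φ : Fin n → σ := fun q => (S.equivFinOfCardEq hS).symm q
  have hφ : Function.Injective φ := fun a b h =>
    (S.equivFinOfCardEq hS).symm.injective (Subtype.ext h)
  have hφS : ∀ q, φ q ∈ S := fun q => ((S.equivFinOfCardEq hS).symm q).2
  have hφr : ∀ j ∈ S, ∃ q, φ q = j := fun j hj =>
    ⟨S.equivFinOfCardEq hS ⟨j, hj⟩, by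
      change (((S.equivFinOfCardEq hS).symm (S.equivFinOfCardEq hS ⟨j, hj⟩) : S) : σ) = j
      rw [Equiv.symm_apply_apply]⟩
  refine (finrank_ren hφ d eta).trans ?_
  refine chain (stab m σ eta) S c h3 (Function.extend φ d 0) ?_ ?_ ?_
  · intro i hi
    obtain ⟨q, rfl⟩ := hφr i hi
    rw [hφ.extend_apply]
    refine le_trans ?_ (hdT q)
    rw [Nat.le_div_iff_mul_le hn, mul_comm]
    exact h4 _
  · intro i hi
    rw [Function.extend_apply' _ _ _ (fun ⟨q, hq⟩ => hi (hq ▸ hφS q))]
    exact Nat.zero_le _
  · rw [hsum, ← hds]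
    symm
    apply Fintype.sum_of_injective φ hφ
    · intro i hi
      rw [Function.extend_apply' _ _ _ (fun ⟨q, hq⟩ => hi ⟨q, hq⟩)]
      rfl
    · intro q
      rw [hφ.extend_apply]

end Vale.Agent.P181.MR.H467
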